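import Vale.Agent.P022G.Defs
import Vale.Agent.P022G.Nice0
import Vale.Agent.P022.H297.L3.Inert
import Vale.Agent.P027M.F.Tra

/-! # P022G, block Crv: a character of `2`-power order with trivial local data is trivial -/

set_option linter.all false

noncomputable section

namespace Vale.Agent.P022G.Crv

open NumberField IsLocalRing
open Vale.Agent.P022 Vale.Agent.P022G.R Vale.Agent.P022G.Loc
open Vale.Agent.P022E.Loc (Pl)
open scoped Pointwise

variable {O F : Type} [CommRing O] [Field F] {S : Dat O F} {L : Pl O}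

theorem odd_two {Γ : Type} [CommGroup Γ] {x : Γ} {m k : ℕ} (hm : Odd m) (h1 : x ^ m = 1)
    (h2 : x ^ 2 ^ k = 1) : x = 1 := by
  have hc : Nat.Coprime m (2 ^ k) := (Nat.coprime_two_right.2 hm).pow_right k
  have := Nat.dvd_gcd (orderOf_dvd_of_pow_eq_one h1) (orderOf_dvd_of_pow_eq_one h2)
  rw [hc, Nat.dvd_one] at this
  exact orderOf_eq_one_iff.1 this

/-- an element of the decomposition group at two with cyclotomic character five -/
theorem ex_five {P : Ideal (𝓞 Qb)} (hP : P.IsPrime) (h2 : ((2 : ℕ) : 𝓞 Qb) ∈ P) :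
    ∃ γ ∈ P022D.W.dec P, (H853.cyc 8 γ : ZMod 8) = 5 := by
  obtain ⟨g, hg, e⟩ := H297.L3.inert_cyc (m := 8) (p := 2) (k := 3) (m' := 1) Nat.prime_two rfl
    (Nat.coprime_one_right 2) hP h2 ⟨5, 5, by decide, by decide⟩ (Nat.modEq_one)
  refine ⟨g, fun x => ⟨fun h => ?_, fun h => ?_⟩, by rw [e]⟩
  · have := P.sub_mem h (hg x)
    rwa [sub_sub_cancel] at this
  · simpa using P.add_mem (hg x) h

theorem det1 [IsLocalRing O] (hL : OkG L S) {Γ : Type} [CommGroup Γ] (η : GQ →* Γ)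
    (ho : IsOpen {g : GQ | η g = 1}) (two : ∀ g, ∃ k : ℕ, η g ^ 2 ^ k = 1)
    (h2 : ∀ g ∈ P022D.W.dec (L.P 2), η g = 1) (hc : η L.c = 1)
    (ht : ∀ l ∈ L.W ∪ L.C, η (L.τ l) = 1)
    (unr : ∀ l : ℕ, l.Prime → l ∉ S.T → ∀ P : Ideal (𝓞 Qb), P.IsPrime → (l : 𝓞 Qb) ∈ P →
      ∀ s, P027M.S.Inert P s → η s = 1) : ∀ g, η g = 1 := by
  have hN : Nice.Gd η.ker := by
    refine ⟨inferInstance, ho, fun g => ?_, fun l hl hl2 σ hσ => ?_⟩
    · obtain ⟨k, hk⟩ := two g
      exact ⟨k, by rw [MonoidHom.mem_ker, map_pow, hk]⟩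
    · obtain ⟨P, hP, hlP, hx⟩ := hσ
      rw [MonoidHom.mem_ker]
      by_cases hT : l ∈ S.T
      · have hm : l ∈ L.W ∪ L.C := by
          rw [hL.hT, Finset.mem_insert, Finset.mem_insert] at hT
          rcases hT with h | h | h
          · exact absurd h hl.ne_zero
          · exact absurd h hl2
          · exact h
        obtain ⟨g, hg⟩ := P027M.F.Tra.trans hl hP (hL.hP l hm).1 hlP (hL.hP l hm).2
        obtain ⟨N, hNt⟩ := (hL.tm l hm).tame Γ η ho
        have hin : g * σ * g⁻¹ ∈ H443.inP (L.P l) := fun x => by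
          have := Ideal.smul_mem_pointwise_smul g _ P (hx (g⁻¹ • x))
          rw [smul_sub, smul_inv_smul, ← hg] at this
          rw [mul_smul, mul_smul]
          exact this
        obtain ⟨k, p, hp, e⟩ := hNt.cyc _ hin
        obtain ⟨m, hm1, hm2⟩ := hNt.odd p hp
        obtain ⟨j, hj⟩ := two p
        have e1 : η p = 1 := odd_two hm1 hm2 hj
        have e2 := congrArg η e
        rw [map_mul, map_mul, map_inv, map_mul, map_pow, ht l hm, e1, one_pow, mul_one,
          mul_comm (η g), mul_inv_cancel_right] at e2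
        exact e2
      · exact unr l hl hT P hP hlP σ hx
  obtain ⟨γ, hγ, e5⟩ := ex_five (P := L.P 2) (by rw [hL.h2]; exact P022D.Loc2.PP_prime 2)
    (by rw [hL.h2]; exact P022D.Loc2.p_mem_PP 2)
  have hgen := Nice.gen hN hL.cj e5
  intro g
  have hx : QuotientGroup.mk' η.ker g ∈ Subgroup.closure
      {QuotientGroup.mk' η.ker L.c, QuotientGroup.mk' η.ker γ} := by rw [hgen]; trivial
  have hb : Subgroup.closure {QuotientGroup.mk' η.ker L.c, QuotientGroup.mk' η.ker γ} ≤ ⊥ := by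
    rw [Subgroup.closure_le]
    rintro y (rfl | rfl)
    · exact (QuotientGroup.eq_one_iff _).2 hc
    · exact (QuotientGroup.eq_one_iff _).2 (h2 γ hγ)
  exact (QuotientGroup.eq_one_iff _).1 (hb hx)

end Vale.Agent.P022G.Crv
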