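import Vale.Agent.P022G.Crv.Uni
import Vale.Agent.P022G.Po

/-!
P022G: the framed point over a curve in the ring of symbols.
-/

set_option linter.all false

noncomputable section

namespace Vale.Agent.P022G.Crv

open NumberField IsLocalRing MvPowerSeries
open Vale.Agent.P022 Vale.Agent.P022.H346 Vale.Agent.P022G.R Vale.Agent.P022G.Loc
open Vale.Agent.P027M.S (Inert mx)
open Vale.Agent.P022D.Sel (M2 IsDec)
open Vale.Agent.P022D.Core (PS)
open Vale.Agent.P022E.Loc (Pl)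
open Vale.Agent.P022F.Gm (GM)

variable {O F : Type} [CommRing O] [Field F] {S : Dat O F} {L : Pl O} {κ : Type} {gk : κ → GQ}
  {ι : Type} (G : Gs S L gk ι)

/-- characters of two-power order which are trivial on the local generators are trivial -/
def DET1 (S : Dat O F) (L : Pl O) : Prop :=
  ∀ (Γ : Type) [CommGroup Γ] (η : GQ →* Γ), IsOpen {g | η g = 1} →
    (∀ g, ∃ k : ℕ, η g ^ 2 ^ k = 1) → (∀ g ∈ P022D.W.dec (L.P 2), η g = 1) → η L.c = 1 →
    (∀ l ∈ L.W ∪ L.C, η (L.τ l) = 1) →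
    (∀ l : ℕ, l.Prime → l ∉ S.T → ∀ P : Ideal (𝓞 Qb), P.IsPrime → (l : 𝓞 Qb) ∈ P →
      ∀ s, Inert P s → η s = 1) → ∀ g, η g = 1

theorem crv0 [IsLocalRing O] [IsNoetherianRing O] [IsAdicComplete (maximalIdeal O) O] [Finite F]
    [CharP F 2] [Fintype ι] (hL : OkG L S) (hD : DET1 S L) (hdec : ∀ l ∈ S.T, IsDec l (L.D l))
    (p : Ideal (PS O (Sy ι))) (hp : p.IsPrime) (ha : G.aP ≤ p)
    (hπ : ∀ o ∈ maximalIdeal O, C o ∈ p) (hd : ringKrullDim (PS O (Sy ι) ⧸ p) = 1) :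
    ∃ (V : Type) (_ : CommRing V) (_ : IsDomain V) (_ : IsDiscreteValuationRing V) (_ : CharP V 2)
      (t : V) (j : O →+* V) (ρ : GQ →* GL (Fin 2) V) (θ : PS O (Sy ι) →+* V),
      Irreducible t ∧ IsAdicComplete (maximalIdeal V) V ∧ Finite (ResidueField V) ∧
      RingHom.ker θ = p ∧ (∀ f ∈ maximalIdeal (PS O (Sy ι)), θ f ∈ maximalIdeal V) ∧
      G.Crv t j ρ θ := by
  obtain ⟨a, b, x, hU⟩ := uni G hL
  have hc := P022D.CA.Cpl.isAdicCompleteV (σ := Sy ι) (V := O) inferInstance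
  have := fin_res S
  have : Finite (ResidueField (PS O (Sy ι))) := P022D.CA.Cpl.finite_residue
  have key : ∀ f f' : PS O (Sy ι), (∀ (B : Type) [CommRing B] (Z : PO S B)
      (ψ : PS O (Sy ι) →+* B), Pt G Z ψ → ψ f = ψ f') →
      Ideal.Quotient.mk p f = Ideal.Quotient.mk p f' := fun f f' h =>
    Ideal.Quotient.eq.2 (ha ((mem_aP G).2 fun B _ Z ψ k => by rw [map_sub, h B Z ψ k, sub_self]))
  obtain ⟨ta, hta⟩ : ∃ ta : GQ → PS O (Sy ι), ta = fun g => a g + b g := ⟨_, rfl⟩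
  obtain ⟨da, hda⟩ : ∃ da : GQ → PS O (Sy ι), da = fun g => a g * b g - x g g := ⟨_, rfl⟩
  have ea : ∀ {B : Type} [CommRing B] {Z : PO S B} {ψ : PS O (Sy ι) →+* B}, Pt G Z ψ →
      ∀ g, ψ (a g) = Z.a g := fun k => (hU.ev _ _ _ k).1
  have eb : ∀ {B : Type} [CommRing B] {Z : PO S B} {ψ : PS O (Sy ι) →+* B}, Pt G Z ψ →
      ∀ g, ψ (b g) = Z.b g := fun k => (hU.ev _ _ _ k).2.1
  have ex : ∀ {B : Type} [CommRing B] {Z : PO S B} {ψ : PS O (Sy ι) →+* B}, Pt G Z ψ →
      ∀ g h, ψ (x g h) = Z.x g h := fun k => (hU.ev _ _ _ k).2.2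
  have et : ∀ {B : Type} [CommRing B] {Z : PO S B} {ψ : PS O (Sy ι) →+* B}, Pt G Z ψ →
      ∀ g, ψ (ta g) = Z.t g := fun {B} _ {Z ψ} k g => by rw [hta, map_add, ea k, eb k, Z.gm.sum]
  have ed : ∀ {B : Type} [CommRing B] {Z : PO S B} {ψ : PS O (Sy ι) →+* B}, Pt G Z ψ →
      ∀ g, ψ (da g) = Z.d g := fun {B} _ {Z ψ} k g => by
    rw [hda, map_sub, map_mul, ea k, eb k, ex k, Z.gm.det]
  obtain ⟨B0, _, Z0, ψ0, k0⟩ : ∃ (B : Type) (_ : CommRing B) (Z : PO S B)
      (ψ : PS O (Sy ι) →+* B), Pt G Z ψ := by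
    by_contra hn
    push Not at hn
    exact hp.ne_top ((Ideal.eq_top_iff_one _).2 (ha ((mem_aP G).2 fun B _ Z ψ k =>
      absurd k (hn B _ Z ψ))))
  let rA : PS O (Sy ι) →+* F := Z0.π.comp ψ0
  have hrA : RingHom.ker rA = maximalIdeal _ := hm_max Z0 k0.2
  have rC : ∀ o, rA (C o) = S.red o := fun o => by
    show Z0.π (ψ0 _) = _
    rw [k0.2.c, Z0.alg]
  have ra : ∀ g, rA (a g) = mx S.rb g 0 0 := fun g => by
    show Z0.π (ψ0 _) = _
    rw [ea k0, Z0.ra]
  have rb : ∀ g, rA (b g) = mx S.rb g 1 1 := fun g => by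
    show Z0.π (ψ0 _) = _
    rw [eb k0, Z0.rb]
  have rx : ∀ g h, rA (x g h) = mx S.rb g 0 1 * mx S.rb h 1 0 := fun g h => by
    show Z0.π (ψ0 _) = _
    rw [ex k0, Z0.rx]
  have rt : ∀ g, rA (ta g) = (mx S.rb g).trace := fun g => by
    rw [hta, map_add, ra, rb, Matrix.trace_fin_two]
  have rd : ∀ g, rA (da g) = (mx S.rb g).det := fun g => by
    rw [hda, map_sub, map_mul, ra, rb, rx, Matrix.det_fin_two]
  have h2F : (2 : F) = 0 := CharP.cast_eq_zero F 2
  have h2O : (2 : O) ∈ maximalIdeal O := (hL.ker 2).1 (by rw [map_ofNat, h2F])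
  -- the quotient
  have : Nontrivial (PS O (Sy ι) ⧸ p) := Ideal.Quotient.nontrivial_iff.2 hp.ne_top
  have : IsLocalRing (PS O (Sy ι) ⧸ p) :=
    .of_surjective' (Ideal.Quotient.mk p) Ideal.Quotient.mk_surjective
  have := Curve.cpl_max (R := PS O (Sy ι)) (B := PS O (Sy ι) ⧸ p)
  let rq : (PS O (Sy ι) ⧸ p) →+* F := Ideal.Quotient.lift p rA fun f hf => by
    rw [← RingHom.mem_ker, hrA]
    exact le_maximalIdeal hp.ne_top hf
  let D1 : GQ →* (PS O (Sy ι) ⧸ p) :=
    { toFun := fun g => Ideal.Quotient.mk p (da g)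
      map_one' := key _ 1 fun B _ Z ψ k => by rw [ed k, map_one, map_one, Units.val_one]
      map_mul' := fun g h => by
        rw [← map_mul]
        exact key _ _ fun B _ Z ψ k => by rw [map_mul, ed k, ed k, ed k, map_mul, Units.val_mul] }
  have T : TF (fun g => Ideal.Quotient.mk p (ta g)) D1.toHomUnits :=
    ⟨by
      rw [← map_ofNat (Ideal.Quotient.mk p) 2]
      exact key _ _ fun B _ Z ψ k => by rw [et k, Z.tf.one, map_ofNat],
    fun g h => key _ _ fun B _ Z ψ k => by rw [et k, et k, Z.tf.comm],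
    fun g h => by
      show _ = _ + Ideal.Quotient.mk p (da h) * _
      rw [← map_mul, ← map_mul, ← map_add]
      exact key _ _ fun B _ Z ψ k => by
        rw [map_add, map_mul, map_mul, et k, et k, et k, et k, ed k, Z.tf.mul]⟩
  obtain ⟨V, _, _, _, _, j0, ι0, ρ, hk, hcV, hfV, r0, r1, r2, r3, r4, r5, r6⟩ :=
    Po.point rq (fun y => by
        obtain ⟨c, rfl⟩ := S.surj y
        exact ⟨Ideal.Quotient.mk p (C c), rC c⟩) T ((Units.coeHom _).comp S.rb) rt rd S.g0
      ⟨S.d01, S.d10⟩ S.dne (by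
        by_cases h : ∀ g, g ∈ L.H
        · exact Or.inl fun g => hL.dh.dg g (h g)
        · push Not at h
          obtain ⟨s, hs⟩ := h
          have h1 := hL.det s
          rw [Matrix.det_fin_two, (hL.dh.ad s hs).1, zero_mul, zero_sub] at h1
          refine Or.inr ⟨s, fun h0 => ?_, fun h0 => ?_⟩
          · rw [show mx S.rb s 0 1 = 0 from h0, zero_mul, neg_zero] at h1
            exact zero_ne_one h1
          · rw [show mx S.rb s 1 0 = 0 from h0, mul_zero, neg_zero] at h1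
            exact zero_ne_one h1) ⊥ Ideal.isPrime_bot (by
        rw [Ideal.mem_bot, ← map_ofNat (Ideal.Quotient.mk p) 2, Ideal.Quotient.eq_zero_iff_mem,
          ← map_ofNat (C : O →+* PS O (Sy ι)) 2]
        exact hπ 2 h2O) (Conn.dim_quot_bot.trans hd)
  obtain ⟨t, ht⟩ := IsDiscreteValuationRing.exists_irreducible V
  obtain ⟨θ, hθ⟩ : ∃ θ : PS O (Sy ι) →+* V, θ = j0.comp (Ideal.Quotient.mk p) := ⟨_, rfl⟩
  have kθ : ∀ f f' : PS O (Sy ι), (∀ (B : Type) [CommRing B] (Z : PO S B)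
      (ψ : PS O (Sy ι) →+* B), Pt G Z ψ → ψ f = ψ f') → θ f = θ f' := fun f f' h => by
    rw [hθ]
    exact congrArg j0 (key f f' h)
  have s0 : ∀ f, residue V (θ f) = ι0 (rA f) := fun f => by rw [hθ]; exact r0 _
  have s1 : ∀ g, (ρ g).trace = θ (ta g) := fun g => by rw [hθ]; exact r1 g
  have s2 : ∀ g, (ρ g).det = θ (da g) := fun g => by rw [hθ]; exact r2 g
  have s3 : ∀ g i k, residue V (ρ g i k) = ι0 (mx S.rb g i k) := r3
  have hker : RingHom.ker θ = p := by
    ext f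
    rw [hθ, RingHom.mem_ker, RingHom.comp_apply, ← RingHom.mem_ker, hk, Ideal.mem_bot,
      Ideal.Quotient.eq_zero_iff_mem]
  have hun : ∀ y : V, residue V y ≠ 0 → IsUnit y := fun y hy => by
    rwa [Ne, residue_eq_zero_iff, notMem_maximalIdeal] at hy
  have hdv : ∀ y : V, residue V y = 0 → t ∣ y := fun y hy => by
    rwa [residue_eq_zero_iff, ht.maximalIdeal_eq, Ideal.mem_span_singleton] at hy
  have jm : ∀ o ∈ maximalIdeal O, θ (C o) = 0 := fun o ho => by
    rw [← RingHom.mem_ker, hker]; exact hπ o ho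
  have jd : ∀ g, θ (C (L.r g).det) = 1 := fun g => by
    have := jm ((L.r g).det - 1) ((hL.ker _).1 (by
      rw [map_sub, map_one, RingHom.map_det, RingHom.mapMatrix_apply, hL.lift, hL.det, sub_self]))
    rwa [map_sub, map_sub, map_one, map_one, sub_eq_zero] at this
  have h2V : (2 : V) = 0 := CharP.cast_eq_zero V 2
  -- the entries
  obtain ⟨e0, e1⟩ := P022D.Gma.root_unique (α := θ (a S.g0)) (β := θ (b S.g0)) (α' := ρ S.g0 0 0)
    (β' := ρ S.g0 1 1) (by rw [← Matrix.trace_fin_two, s1, hta, map_add]) (by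
      have h1 := s2 S.g0
      have h3 : θ (x S.g0 S.g0) = θ 0 := kθ _ _ fun B _ Z ψ k => by
        rw [ex k, (Z.x0 _).1, map_zero]
      rw [Matrix.det_fin_two, r4.1, zero_mul, sub_zero, hda, map_sub, map_mul, h3, map_zero,
        sub_zero] at h1
      exact h1.symm) (hun _ (by
      rw [map_sub, s3, s0, rb, ← map_sub]
      exact (map_ne_zero ι0).2 (sub_ne_zero.2 S.dne)))
  have m00 : ∀ g, ρ g 0 0 = θ (a g) := fun g => by
    have hu : IsUnit (θ (a S.g0) - θ (b S.g0)) := hun _ (by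
      rw [map_sub, s0, s0, ra, rb, ← map_sub]
      exact (map_ne_zero ι0).2 (sub_ne_zero.2 S.dne))
    apply hu.mul_right_cancel
    have h1 : θ (a g * (a S.g0 - b S.g0)) = θ (ta (g * S.g0) - b S.g0 * ta g) :=
      kθ _ _ fun B _ Z ψ k => by
        rw [map_mul, map_sub, map_sub, map_mul, ea k, ea k, eb k, et k, et k, po_a]
    rw [map_mul, map_sub, map_sub, map_mul, ← s1, ← s1] at h1
    rw [h1, map_mul, Matrix.trace_fin_two, Matrix.trace_fin_two, Matrix.mul_apply, Matrix.mul_apply,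
      Fin.sum_univ_two, Fin.sum_univ_two, r4.1, r4.2, e0, e1]
    ring
  have m11 : ∀ g, ρ g 1 1 = θ (b g) := fun g => by
    have h1 := s1 g
    rw [Matrix.trace_fin_two, hta, map_add, m00] at h1
    exact add_left_cancel h1
  have mx' : ∀ g h, ρ g 0 1 * ρ h 1 0 = θ (x g h) := fun g h => by
    have h1 : θ (a (g * h)) = θ (a g * a h + x g h) := kθ _ _ fun B _ Z ψ k => by
      rw [map_add, map_mul, ea k, ea k, ea k, ex k, Z.gm.am]
    rw [← m00, map_mul, Matrix.mul_apply, Fin.sum_univ_two, map_add, map_mul, m00, m00] at h1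
    exact add_left_cancel h1
  have hunr : ∀ l : ℕ, l.Prime → l ∉ S.T → ∀ P : Ideal (𝓞 Qb), P.IsPrime → (l : 𝓞 Qb) ∈ P →
      ∀ s, Inert P s → ρ s = 1 := fun l a1 a2 P a3 a4 s hs => by
    rw [← map_one ρ]
    refine r5 _ _ fun y z => ?_
    rw [Ideal.mem_bot, sub_eq_zero]
    exact key _ _ fun B _ Z ψ k => by
      rw [et k, et k, mul_one]
      exact kr_mid Z.tf (k.1.unr l a1 a2 (Finset.notMem_empty l) P a3 a4 s hs) y z
  have hpw : ∀ N : ℕ, maximalIdeal V ^ N = P022G.Sel.tI t N := fun N => by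
    rw [ht.maximalIdeal_eq, Ideal.span_singleton_pow]
  have hopn : ∀ N : ℕ, IsOpen {g : GQ | P022G.Sel.rd (P022G.Sel.tI t N) ρ.toHomUnits g = 1} := by
    intro N
    obtain ⟨N', hN⟩ := r6 N
    obtain ⟨U, hUo, hU'⟩ := hU.opn N'
    refine Subgroup.isOpen_mono (H₁ := U)
      (H₂ := (P022G.Sel.rd (P022G.Sel.tI t N) ρ.toHomUnits).ker) (fun u hu => ?_) hUo
    have h1 := hN u 1 fun y z => by
      have h3 := Ideal.mem_map_of_mem (Ideal.Quotient.mk p) (hU' u hu y z)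
      rw [Ideal.map_sup, Ideal.map_pow, map_sub] at h3
      rw [mul_one, hta]
      have h4 : G.aP.map (Ideal.Quotient.mk p) ≤ ⊥ := Ideal.map_le_iff_le_comap.2 fun f hf =>
        Ideal.Quotient.eq_zero_iff_mem.2 (ha hf)
      have h5 := Ideal.pow_right_mono (Curve.map_le (R := PS O (Sy ι)) (B := PS O (Sy ι) ⧸ p)) N'
      exact (sup_le_sup h4 h5 :) h3
    rw [MonoidHom.mem_ker, ← map_one (P022G.Sel.rd (P022G.Sel.tI t N) ρ.toHomUnits)]
    refine Units.ext (Matrix.ext fun i k => ?_)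
    exact Ideal.Quotient.eq.2 (hpw N ▸ h1 i k)
  have hdet : ∀ g, (ρ g).det = 1 := fun g => by
    rw [← sub_eq_zero]
    refine IsHausdorff.haus (I := maximalIdeal V) inferInstance _ fun N => ?_
    rw [SModEq.zero, smul_eq_mul, Ideal.mul_top, hpw, ← Ideal.Quotient.eq]
    let η : GQ →* (V ⧸ P022G.Sel.tI t N)ˣ := Matrix.GeneralLinearGroup.det.comp
      (P022G.Sel.rd (P022G.Sel.tI t N) ρ.toHomUnits)
    have hη : ∀ g, (η g : V ⧸ P022G.Sel.tI t N) = Ideal.Quotient.mk _ (ρ g).det := fun g =>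
      (RingHom.map_det _ _).symm
    have h1 : ∀ g, (ρ g).det = 1 → η g = 1 := fun g h => Units.ext (by
      rw [hη, h, map_one, Units.val_one])
    rw [← hη, map_one, ← Units.val_one]
    refine congrArg _ (hD _ η (Subgroup.isOpen_mono
      (H₁ := (P022G.Sel.rd (P022G.Sel.tI t N) ρ.toHomUnits).ker)
      (H₂ := η.ker) (fun u hu => by
        show Matrix.GeneralLinearGroup.det (P022G.Sel.rd _ _ u) = 1
        rw [MonoidHom.mem_ker.1 hu, map_one]) (hopn N)) (fun g => ⟨N, Units.ext ?_⟩)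
      (fun g hg => h1 g ?_) (h1 _ ?_) (fun l hl => h1 _ ?_)
      (fun l a1 a2 P a3 a4 s hs => h1 s (by rw [hunr l a1 a2 P a3 a4 s hs, Matrix.det_one])) g)
    · have : Fact (Nat.Prime 2) := ⟨Nat.prime_two⟩
      rw [Units.val_pow_eq_pow_val, hη, Units.val_one, ← map_pow, ← map_one (Ideal.Quotient.mk _),
        Ideal.Quotient.eq, ← hpw, ← one_pow (2 ^ N), ← sub_pow_char_pow]
      refine Ideal.pow_le_pow_right (Nat.lt_two_pow_self).le (Ideal.pow_mem_pow ?_ _)
      rw [← residue_eq_zero_iff, map_sub, s2, s0, rd, hL.det, map_one, map_one, sub_self]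
    · rw [s2, ← jd g]
      exact kθ _ _ fun B _ Z ψ k => by rw [ed k, k.1.d2 g hg, k.2.c]
    · have h3 : θ (da L.c) = θ (-1) := kθ _ _ fun B _ Z ψ k => by
        rw [ed k, k.1.dc, map_neg, map_one]
      rw [s2, h3, map_neg, map_one]
      linear_combination -h2V
    · rw [s2, ← jd (L.τ l)]
      exact kθ _ _ fun B _ Z ψ k => by rw [ed k, k.1.dl l hl, k.2.c]
  refine ⟨V, inferInstance, inferInstance, inferInstance, inferInstance, t, θ.comp C, ρ.toHomUnits,
    θ, ht, hcV, hfV, hker, fun f hf => ?_, ⟨fun _ => rfl, fun s => ?_⟩, fun g i k => ?_, r4,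
    fun N => ⟨hopn N, ?_, ?_, hdec, fun l hl P hP g hg => ?_⟩, hdet, fun l hl => ?_⟩
  · rw [← hrA, RingHom.mem_ker] at hf
    rw [← residue_eq_zero_iff, s0, hf, map_zero]
  · rcases s with i | i | ⟨i, k⟩
    · have h1 : θ (aS G.rc id i) = θ (a (G.γ i)) := kθ _ _ fun B _ Z ψ k => by
        rw [hm_a Z k.2, ea k]
      rw [aS, map_add, ← m00] at h1
      exact eq_sub_of_add_eq' h1
    · have h1 : θ (dS G.rc id i) = θ (b (G.γ i)) := kθ _ _ fun B _ Z ψ k => by
        rw [hm_d Z k.2, eb k]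
      rw [dS, map_add, ← m11] at h1
      exact eq_sub_of_add_eq' h1
    · have h1 : θ (xS G.rc id i k) = θ (x (G.γ i) (G.γ k)) := kθ _ _ fun B _ Z ψ k => by
        rw [hm_x Z k.2, ex k]
      rw [xS, map_add, ← mx'] at h1
      exact eq_sub_of_add_eq' h1
  · refine hdv _ ?_
    show residue V (ρ g i k - θ (C _)) = 0
    rw [map_sub, s3, s0, rC, ← hL.lift, Matrix.map_apply, sub_self]
  · rw [hL.hT]; exact Finset.mem_insert_self _ _
  · rw [hL.hT]; exact Finset.mem_insert_of_mem (Finset.mem_insert_self _ _)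
  · have h1 : ρ.toHomUnits g = 1 := Units.ext (hunr l hP.1 hl P hP.2.1 hP.2.2 g hg)
    show Matrix.GeneralLinearGroup.map _ (ρ.toHomUnits g) = 1
    rw [h1, map_one]
  · obtain ⟨-, hH, hne⟩ := hL.reg l hl
    have q1 : rA (C (L.r (L.g0 l) 1 1)) = mx S.rb (L.g0 l) 1 1 := by
      rw [rC, ← hL.lift, Matrix.map_apply]
    obtain ⟨y, y', hs, hq, hy⟩ := P022D.Gma.hensel (maximalIdeal (PS O (Sy ι))) (ta (L.g0 l))
      (da (L.g0 l)) (C (L.r (L.g0 l) 1 1)) (by
        rw [← hrA, RingHom.mem_ker, map_add, map_sub, map_pow, map_mul, q1, rt, rd,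
          Matrix.trace_fin_two, Matrix.det_fin_two, (hL.dh.dg _ hH).1]
        ring) (IsUnit.map _ (by
        rw [← notMem_maximalIdeal, ← hrA, RingHom.mem_ker, map_sub, map_mul, map_ofNat, q1, rt,
          Matrix.trace_fin_two]
        exact fun h => hne (by linear_combination -h)))
    have q2 : rA y = mx S.rb (L.g0 l) 1 1 := by
      rw [← hrA, RingHom.mem_ker, map_sub, q1, sub_eq_zero] at hy
      exact hy
    have q3 : θ (ta (L.τ l * L.g0 l) - y * ta (L.τ l)) =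
        θ (C (L.a l) * (ta (L.g0 l) - 2 * y)) := kθ _ _ fun B _ Z ψ k => by
      obtain ⟨z, z1, z2, z3⟩ := k.1.ty l hl
      have z4 : Z.π (ψ y) = mx S.rb (L.g0 l) 1 1 := by
        rw [hm_res Z k.2, ← hm_res Z0 k0.2]
        exact q2
      have z5 := (P022D.Gma.root_unique (α := z) (β := Z.t (L.g0 l) - z) (α' := ψ y) (β' := ψ y')
        (by rw [← map_add, hs, et k]; ring) (by rw [← map_mul, hq, ed k]; linear_combination -z1)
        (Z.loc _ (by
          rw [map_sub, map_sub, z4, z2, ← Z.gm.sum, map_add, Z.ra, Z.rb]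
          exact fun h => hne (by linear_combination -h)))).1
      rw [map_sub, map_mul, map_mul, map_sub, map_mul, map_ofNat, et k, et k, et k, z5, k.2.c, z3]
    refine ⟨θ y, ?_, hdv _ ?_, ?_⟩
    · show θ y ^ 2 - (ρ (L.g0 l)).trace * θ y + 1 = 0
      rw [← hdet (L.g0 l), s1, s2, ← hs, ← hq, map_add, map_mul]
      ring
    · show residue V (θ y - θ (C _)) = 0
      rw [map_sub, s0, s0, q1, q2, sub_self]
    · show (ρ (L.τ l * L.g0 l)).trace - θ y * (ρ (L.τ l)).trace = θ (C _) * (ρ (L.g0 l)).trace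
      rw [map_sub, map_mul, map_mul, map_sub, map_mul, map_ofNat, h2V, zero_mul, sub_zero] at q3
      rw [s1, s1, s1, q3]

end Vale.Agent.P022G.Crv
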