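import Vale.Agent.P022G.Defs
import Vale.Agent.P022G.Kdel2
import Vale.Agent.P022D.R.Gas
import Vale.Agent.P022D.CA.Cpl
import Vale.Agent.P022D.Sel.Odd

/-!
P022G: the universal pseudo object of level zero.
-/

set_option linter.all false

noncomputable section

namespace Vale.Agent.P022G.Crv

open NumberField IsLocalRing MvPowerSeries
open Vale.Agent.P022 Vale.Agent.P022.H346 Vale.Agent.P022G.R Vale.Agent.P022G.Loc
open Vale.Agent.P027M.S (Inert mx)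
open Vale.Agent.P022D.Sel (M2)
open Vale.Agent.P022D.Core (PS)
open Vale.Agent.P022E.Loc (Pl)
open Vale.Agent.P022F.Gm (GM)

/-- compactness -/
theorem cpt {A : Type} [CommRing A] (m : Ideal A) [IsPrecomplete m A]
    (hfin : ∀ k, Finite (A ⧸ m ^ k)) (𝒮 : Set (Set A))
    (hcl : ∀ s ∈ 𝒮, ∃ k : ℕ, ∀ f ∈ s, ∀ f', f - f' ∈ m ^ k → f' ∈ s)
    (hfip : ∀ T : Finset (Set A), (∀ s ∈ T, s ∈ 𝒮) → ∃ f, ∀ s ∈ T, f ∈ s) :
    ∃ f, ∀ s ∈ 𝒮, f ∈ s := by
  classical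
  let α := {T : Finset (Set A) // ∀ s ∈ T, s ∈ 𝒮}ᵒᵈ
  have : Nonempty α := ⟨⟨∅, by simp⟩⟩
  obtain ⟨U, hU⟩ := P022D.R.exists_ultra (α := α) fun a b =>
    ⟨⟨a.1 ∪ b.1, fun s hs => (Finset.mem_union.1 hs).elim (a.2 s) (b.2 s)⟩,
      Finset.subset_union_left, Finset.subset_union_right⟩
  choose x hx using fun a : α => hfip a.1 a.2
  obtain ⟨y, hy⟩ := P022D.R.ulim_adic U x m hfin
  refine ⟨y, fun s hs => ?_⟩
  obtain ⟨k, hk⟩ := hcl s hs
  obtain ⟨a, h1, h2⟩ := ((hU ⟨{s}, by simpa using hs⟩).and (hy k)).exists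
  exact hk _ (hx a s (h1 (Finset.mem_singleton_self s))) _ h2

section tf

variable {G B : Type} [Group G] [CommRing B] {t : G → B} {d : G →* Bˣ}

theorem two_pow (T : TF t d) (m : Ideal B) (h2 : (2 : B) ∈ m) {g : G} (ht : t g ∈ m)
    (hd : (d g : B) - 1 ∈ m) (k : ℕ) : t (g ^ 2 ^ k) ∈ m ∧
      1 - t (g ^ 2 ^ k) + d (g ^ 2 ^ k) ∈ m ^ (k + 1) ∧ ∀ h, t (h * g ^ 2 ^ k) - t h ∈ m ^ k := by
  induction k with
  | zero =>
    rw [pow_zero, pow_one, zero_add, pow_one, pow_zero, Ideal.one_eq_top]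
    refine ⟨ht, ?_, fun _ => Submodule.mem_top⟩
    rw [show 1 - t g + (d g : B) = (d g : B) - 1 - t g + 2 by ring]
    exact add_mem (sub_mem hd ht) h2
  | succ k ih =>
    obtain ⟨h1, h3, h4⟩ := ih
    rw [pow_succ 2, pow_mul, sq]
    generalize g ^ 2 ^ k = u at h1 h3 h4 ⊢
    have e := fun h => T.sq h u 1
    simp only [mul_one] at e
    have e1 := e 1
    rw [one_mul, T.one] at e1
    refine ⟨?_, ?_, fun h => ?_⟩
    · rw [e1]
      exact sub_mem (m.mul_mem_left _ h1) (m.mul_mem_left _ h2)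
    · rw [e1, map_mul, Units.val_mul, pow_succ m (k + 1),
        show 1 - (t u * t u - (d u : B) * 2) + (d u : B) * d u =
          (1 - t u + d u) * ((1 - t u + d u) + t u * 2) by ring]
      exact Ideal.mul_mem_mul h3 (add_mem (Ideal.pow_le_self k.succ_ne_zero h3) (m.mul_mem_left _ h2))
    · rw [← mul_assoc, e, show t u * t (h * u) - (d u : B) * t h - t h =
        (t (h * u) - t h) * t u - t h * (1 - t u + d u) by ring]
      exact sub_mem (by rw [pow_succ]; exact Ideal.mul_mem_mul (h4 h) h1) (Ideal.mul_mem_left _ _ h3)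

/-- the kernel of a trace function -/
def kr (T : TF t d) : Subgroup G where
  carrier := {u | ∀ h, t (h * u) = t h}
  mul_mem' {u v} hu hv h := by rw [← mul_assoc, hv, hu]
  one_mem' h := by rw [mul_one]
  inv_mem' {u} hu h := by rw [← hu (h * u⁻¹), inv_mul_cancel_right]

theorem kr_mid (T : TF t d) {u : G} (hu : u ∈ kr T) (y z : G) : t (y * u * z) = t (y * z) := by
  rw [T.comm, ← mul_assoc, hu, T.comm]

theorem kr_nor (T : TF t d) : (kr T).Normal := ⟨fun u hu g h => by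
  rw [← mul_assoc, ← mul_assoc, kr_mid T hu, mul_inv_cancel_right]⟩

end tf

variable {O F : Type} [CommRing O] [Field F] {S : Dat O F}

section po

variable {B : Type} [CommRing B] (Z : PO S B)

theorem po_unit : IsUnit (Z.a S.g0 - Z.b S.g0) :=
  Z.loc _ (by rw [map_sub, Z.ra, Z.rb]; exact sub_ne_zero.2 S.dne)

theorem po_a (g : GQ) :
    Z.a g * (Z.a S.g0 - Z.b S.g0) = Z.t (g * S.g0) - Z.b S.g0 * Z.t g := by
  rw [← Z.gm.sum, ← Z.gm.sum, Z.gm.am, Z.gm.bm, (Z.x0 g).1, (Z.x0 g).2]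
  ring

theorem po_a_mid {u : GQ} (hu : u ∈ kr Z.tf) (y z : GQ) : Z.a (y * u * z) = Z.a (y * z) := by
  apply (po_unit Z).mul_right_cancel
  rw [po_a, po_a, mul_assoc (y * u), kr_mid Z.tf hu, kr_mid Z.tf hu, mul_assoc]

theorem po_congr {g h g' h' : GQ} (hg : g⁻¹ * g' ∈ kr Z.tf) (hh : h⁻¹ * h' ∈ kr Z.tf) :
    Z.a g' = Z.a g ∧ Z.b g' = Z.b g ∧ Z.x g' h' = Z.x g h := by
  have e1 := po_a_mid Z hg g 1
  have e2 := po_a_mid Z hh h 1
  have e3 := po_a_mid Z hg g h'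
  have e4 := po_a_mid Z hh (g * h) 1
  have e5 := hg g
  simp only [mul_one, mul_inv_cancel_left] at e1 e2 e3 e5
  rw [mul_one, mul_one, mul_assoc, mul_inv_cancel_left] at e4
  refine ⟨e1, ?_, ?_⟩
  · have := Z.gm.sum g'
    rw [e5, ← Z.gm.sum g, e1] at this
    exact add_left_cancel this
  · have := Z.gm.am g' h'
    rw [e3, e4, Z.gm.am, e1, e2] at this
    exact (add_left_cancel this).symm

theorem po_open : IsOpen (kr Z.tf : Set GQ) := by
  obtain ⟨U, hU, h⟩ := Z.opn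
  exact Subgroup.isOpen_mono (H₁ := U) (fun u hu => h u hu) hU

theorem po_two [CharP F 2] {g : GQ} (hg : S.rb g = 1) : ∃ k : ℕ, ∀ n, k ≤ n → g ^ 2 ^ n ∈ kr Z.tf := by
  have := Z.fin
  obtain ⟨k, hk⟩ := P022D.R.ker_nil Z.π Z.loc
  have h1 : mx S.rb g = 1 := by rw [mx, hg]; rfl
  have h2 : (2 : F) = 0 := CharP.cast_eq_zero F 2
  refine ⟨k, fun n hn h => ?_⟩
  have := (two_pow Z.tf (RingHom.ker Z.π) (by rw [RingHom.mem_ker, map_ofNat, h2]) (g := g)
    (by rw [RingHom.mem_ker, ← Z.gm.sum, map_add, Z.ra, Z.rb, h1]; simpa [one_add_one_eq_two] using h2)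
    (by rw [RingHom.mem_ker, ← Z.gm.det]; simp [Z.ra, Z.rb, Z.rx, h1]) n).2.2 h
  have h3 := Ideal.pow_le_pow_right hn this
  rwa [hk, Ideal.mem_bot, sub_eq_zero] at h3

variable {ι : Type} {rc : ι → M2 O} {γ : ι → GQ} {ψ : PS O (Sy ι) →+* B}

theorem hm_a (h : Hm Z.ι (Z.val rc γ) ψ) (i : ι) : ψ (aS rc id i) = Z.a (γ i) := by
  rw [aS, map_add, h.c, h.x]
  exact add_sub_cancel _ _

theorem hm_d (h : Hm Z.ι (Z.val rc γ) ψ) (i : ι) : ψ (dS rc id i) = Z.b (γ i) := by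
  rw [dS, map_add, h.c, h.x]
  exact add_sub_cancel _ _

theorem hm_x (h : Hm Z.ι (Z.val rc γ) ψ) (i k : ι) : ψ (xS rc id i k) = Z.x (γ i) (γ k) := by
  rw [xS, map_add, h.c, h.x]
  exact add_sub_cancel _ _

theorem hm_max [IsLocalRing O] {v : Sy ι → B} (h : Hm Z.ι v ψ) :
    RingHom.ker (Z.π.comp ψ) = maximalIdeal (PS O (Sy ι)) :=
  ker_eq_maximalIdeal _ fun y => by
    obtain ⟨c, rfl⟩ := S.surj y
    exact ⟨C c, by rw [RingHom.comp_apply, h.c, Z.alg]⟩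

theorem hm_res [IsLocalRing O] [Fintype ι] {v : Sy ι → B} (h : Hm Z.ι v ψ) (f : PS O (Sy ι)) :
    Z.π (ψ f) = S.red (constantCoeff f) := by
  have := P022D.CA.Cpl.residue_surj f
  rw [← hm_max Z h, RingHom.mem_ker, RingHom.comp_apply, map_sub, map_sub, h.c, Z.alg,
    sub_eq_zero] at this
  exact this

theorem hm_nil [IsLocalRing O] {v : Sy ι → B} (h : Hm Z.ι v ψ) :
    ∃ k : ℕ, ∀ f ∈ maximalIdeal (PS O (Sy ι)) ^ k, ψ f = 0 := by
  have := Z.fin
  obtain ⟨k, hk⟩ := P022D.R.ker_nil Z.π Z.loc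
  refine ⟨k, fun f hf => ?_⟩
  rw [← hm_max Z h, ← RingHom.comap_ker] at hf
  have := Ideal.le_comap_pow ψ k hf
  rwa [hk, Ideal.mem_comap, Ideal.mem_bot] at this

end po

variable {L : Pl O} {κ : Type} {gk : κ → GQ} {ι : Type} (G : Gs S L gk ι)

/-- a point of level zero -/
def Pt {B : Type} [CommRing B] (Z : PO S B) (ψ : PS O (Sy ι) →+* B) : Prop :=
  Z.Cl L ∅ ∧ Hm Z.ι (Z.val G.rc G.γ) ψ

theorem mem_aP {f : PS O (Sy ι)} : f ∈ G.aP ↔
    ∀ (B : Type) [CommRing B] (Z : PO S B) (ψ : PS O (Sy ι) →+* B), Pt G Z ψ → ψ f = 0 :=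
  ⟨fun h B _ Z ψ k => h B _ _ ψ ⟨Z, k.1, rfl, rfl⟩ k.2,
    fun h B _ j v ψ ⟨Z, k, e1, e2⟩ k' => h B Z ψ ⟨k, by rw [← e1, ← e2]; exact k'⟩⟩

theorem gen0 : Gen S ∅ G.γ := fun Γ _ _ f h1 h2 h3 g => by
  have := G.gen 0 Fin.elim0 Fin.elim0 (fun i => i.elim0) Γ f h1 h2
    (fun l a b _ => h3 l a b (Finset.notMem_empty l)) g
  refine Subgroup.closure_mono ?_ this
  rintro _ ⟨i | i, rfl⟩
  · exact ⟨i, rfl⟩
  · exact i.elim0

/-- finitely many pseudo objects do not distinguish an element from a word in the generators -/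
theorem ex_word [CharP F 2] {σ : Type} [Finite σ] {B : σ → Type} [∀ e, CommRing (B e)]
    (Z : ∀ e, PO S (B e)) (hZ : ∀ e, (Z e).Cl L ∅) (g : GQ) :
    ∃ w ∈ Subgroup.closure (Set.range G.γ), ∀ e, w⁻¹ * g ∈ kr (Z e).tf := by
  let K : Subgroup GQ := ⨅ e, kr (Z e).tf
  have hn : K.Normal := Subgroup.normal_iInf_normal fun e => kr_nor _
  have ho : IsOpen (K : Set GQ) := by
    rw [Subgroup.coe_iInf]
    exact isOpen_iInter_of_finite fun e => po_open (Z e)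
  have := Vale.Agent.P022D.Sel.OddP.compact_GQ
  have : Finite (GQ ⧸ K) := Subgroup.quotient_finite_of_isOpen K ho
  have o : ∀ g, QuotientGroup.mk' K g = 1 ↔ g ∈ K := fun g => QuotientGroup.eq_one_iff g
  have h := gen0 G (GQ ⧸ K) (QuotientGroup.mk' K) (by simp only [o]; exact ho) (fun g hg => by
      choose k hk using fun e => po_two (Z e) hg
      obtain ⟨n, hn⟩ := (Set.finite_range k).bddAbove
      exact ⟨n, by
        rw [← map_pow, o]
        exact Subgroup.mem_iInf.2 fun e => hk e n (hn ⟨e, rfl⟩)⟩)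
    (fun l a b c P d e' s hs => (o s).2 (Subgroup.mem_iInf.2 fun e =>
      (hZ e).unr l a b c P d e' s hs)) g
  rw [show (Set.range fun i => QuotientGroup.mk' K (G.γ i)) =
    QuotientGroup.mk' K '' Set.range G.γ from (Set.range_comp _ _), ← MonoidHom.map_closure] at h
  obtain ⟨w, hw, e⟩ := h
  exact ⟨w, hw, Subgroup.mem_iInf.1 (QuotientGroup.eq.1 e)⟩

theorem ex_fin [IsLocalRing O] [Fintype ι] [CharP F 2] (hL : OkG L S) {σ : Type} [Finite σ]
    {B : σ → Type} [∀ e, CommRing (B e)] (Z : ∀ e, PO S (B e)) (ψ : ∀ e, PS O (Sy ι) →+* B e)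
    (hZ : ∀ e, Pt G (Z e) (ψ e)) (g h : GQ) :
    (∃ f, ∀ e, ψ e f = (Z e).a g) ∧ (∃ f, ∀ e, ψ e f = (Z e).b g) ∧
      ∃ f, ∀ e, ψ e f = (Z e).x g h := by
  obtain ⟨w, hw, e1⟩ := ex_word G Z (fun e => (hZ e).1) g
  obtain ⟨v, hv, e2⟩ := ex_word G Z (fun e => (hZ e).1) h
  let D : GQ →* (∀ e, B e)ˣ :=
    (MulEquiv.piUnits (M := B)).symm.toMonoidHom.comp (Pi.monoidHom fun e => (Z e).d)
  have T : GM (fun g e => (Z e).t g) D (fun g e => (Z e).a g) (fun g e => (Z e).b g)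
      (fun g h e => (Z e).x g h) :=
    ⟨fun g => funext fun e => (Z e).gm.sum g, funext fun e => (Z e).gm.a1,
      funext fun e => (Z e).gm.b1, fun g h => funext fun e => (Z e).gm.am g h,
      fun g h => funext fun e => (Z e).gm.bm g h, fun g h k => funext fun e => (Z e).gm.cl g h k,
      fun g h k => funext fun e => (Z e).gm.cr g h k, fun g => funext fun e => (Z e).gm.det g,
      fun g h k l => funext fun e => (Z e).gm.sw g h k l⟩
  obtain ⟨h1, h2⟩ := P022G.Kd2.mem T G.γ (Pi.ringHom ψ).range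
    (fun i => ⟨aS G.rc id i, funext fun e => hm_a (Z e) (hZ e).2 i⟩)
    (fun i => ⟨dS G.rc id i, funext fun e => hm_d (Z e) (hZ e).2 i⟩)
    (fun i k => ⟨xS G.rc id i k, funext fun e => hm_x (Z e) (hZ e).2 i k⟩) (fun i => by
      have hu : IsUnit (aS G.rc id i * dS G.rc id i - xS G.rc id i i) := by
        rw [MvPowerSeries.isUnit_iff_constantCoeff, ← notMem_maximalIdeal, ← hL.ker]
        have h3 := hL.det (G.γ i)
        rw [← hL.lift, Matrix.det_fin_two] at h3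
        simp only [Matrix.map_apply] at h3
        simp only [aS, dS, xS, Gs.rc, map_sub, map_mul, map_add, constantCoeff_C, constantCoeff_X,
          add_zero, h3]
        exact one_ne_zero
      obtain ⟨u, hu⟩ := hu.exists_right_inv
      refine ⟨u, (Units.inv_eq_of_mul_eq_one_right (funext fun e => ?_)).symm⟩
      have := congrArg (ψ e) hu
      rw [map_mul, map_sub, map_mul, hm_a (Z e) (hZ e).2, hm_d (Z e) (hZ e).2, hm_x (Z e) (hZ e).2,
        (Z e).gm.det, map_one] at this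
      exact this)
  obtain ⟨⟨f1, a1⟩, ⟨f2, a2⟩, -⟩ := h1 w hw
  obtain ⟨f3, a3⟩ := h2 w hw v hv
  exact ⟨⟨f1, fun e => (congrFun a1 e).trans (po_congr (Z e) (e1 e) (e2 e)).1.symm⟩,
    ⟨f2, fun e => (congrFun a2 e).trans (po_congr (Z e) (e1 e) (e2 e)).2.1.symm⟩,
    ⟨f3, fun e => (congrFun a3 e).trans (po_congr (Z e) (e1 e) (e2 e)).2.2.symm⟩⟩

section cpl

variable [IsLocalRing O] [IsNoetherianRing O] [IsAdicComplete (maximalIdeal O) O] [Finite F]
  [Fintype ι]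

theorem fin_res (S : Dat O F) : Finite (ResidueField O) :=
  Finite.of_equiv F ((Ideal.quotEquivOfEq (ker_eq_maximalIdeal S.red S.surj).symm).trans
    (RingHom.quotientKerEquivOfSurjective S.surj)).symm.toEquiv

theorem fin_pow (S : Dat O F) (k : ℕ) :
    Finite (PS O (Sy ι) ⧸ maximalIdeal (PS O (Sy ι)) ^ k) := by
  have := fin_res S
  have : Finite (PS O (Sy ι) ⧸ maximalIdeal (PS O (Sy ι))) := P022D.CA.Cpl.finite_residue
  exact Ideal.finite_quotient_pow (IsNoetherian.noetherian _) k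

/-- a function on the points which is a power series on finite families is a power series -/
theorem ex_univ (Φ : ∀ (B : Type) [CommRing B], PO S B → B)
    (h : ∀ (σ : Type) [Finite σ] (B : σ → Type) [∀ e, CommRing (B e)] (Z : ∀ e, PO S (B e))
      (ψ : ∀ e, PS O (Sy ι) →+* B e), (∀ e, Pt G (Z e) (ψ e)) → ∃ f, ∀ e, ψ e f = Φ _ (Z e)) :
    ∃ f, ∀ (B : Type) [CommRing B] (Z : PO S B) (ψ : PS O (Sy ι) →+* B), Pt G Z ψ →
      ψ f = Φ B Z := by
  have := P022D.CA.Cpl.isAdicCompleteV (σ := Sy ι) (V := O) inferInstance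
  obtain ⟨f, hf⟩ := cpt (maximalIdeal (PS O (Sy ι))) (fin_pow S)
    {s | ∃ (B : Type) (_ : CommRing B) (Z : PO S B) (ψ : PS O (Sy ι) →+* B), Pt G Z ψ ∧
      s = {f | ψ f = Φ B Z}} (by
      rintro _ ⟨B, _, Z, ψ, hZ, rfl⟩
      obtain ⟨k, hk⟩ := hm_nil Z hZ.2
      refine ⟨k, fun f hf f' e => ?_⟩
      have := hk _ e
      rw [map_sub, sub_eq_zero] at this
      exact this.symm.trans hf) (fun T hT => by
      choose B _ Z ψ hZ e using fun s : T => hT s.1 s.2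
      obtain ⟨f, hf⟩ := h T B Z ψ hZ
      exact ⟨f, fun s hs => (e ⟨s, hs⟩).ge (hf ⟨s, hs⟩)⟩)
  exact ⟨f, fun B _ Z ψ hZ => hf _ ⟨B, _, Z, ψ, hZ, rfl⟩⟩

/-- finitely many points see a given power of the maximal ideal -/
theorem chev (N : ℕ) : ∃ (σ : Type) (_ : Finite σ) (B : σ → Type) (_ : ∀ e, CommRing (B e))
    (Z : ∀ e, PO S (B e)) (ψ : ∀ e, PS O (Sy ι) →+* B e), (∀ e, Pt G (Z e) (ψ e)) ∧
    ∀ f, (∀ e, ψ e f = 0) → f ∈ G.aP ⊔ maximalIdeal (PS O (Sy ι)) ^ N := by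
  classical
  have := P022D.CA.Cpl.isAdicCompleteV (σ := Sy ι) (V := O) inferInstance
  by_contra hn
  push Not at hn
  obtain ⟨f, hf⟩ := cpt (maximalIdeal (PS O (Sy ι))) (fin_pow S)
    {s | (∃ (B : Type) (_ : CommRing B) (Z : PO S B) (ψ : PS O (Sy ι) →+* B), Pt G Z ψ ∧
      s = {f | ψ f = 0}) ∨ s = {f | f ∉ G.aP ⊔ maximalIdeal (PS O (Sy ι)) ^ N}} (by
      rintro _ (⟨B, _, Z, ψ, hZ, rfl⟩ | rfl)
      · obtain ⟨k, hk⟩ := hm_nil Z hZ.2
        refine ⟨k, fun f hf f' e => ?_⟩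
        have := hk _ e
        rw [map_sub, sub_eq_zero] at this
        exact this.symm.trans hf
      · refine ⟨N, fun f hf f' e h' => hf ?_⟩
        have := add_mem (Ideal.mem_sup_right (S := G.aP) e) h'
        rwa [sub_add_cancel] at this) (fun T hT => by
      choose B _ Z ψ hZ e using fun s : {s : T // s.1 ≠
        {f | f ∉ G.aP ⊔ maximalIdeal (PS O (Sy ι)) ^ N}} => (hT s.1.1 s.1.2).resolve_right s.2
      obtain ⟨f, h1, h2⟩ := hn _ inferInstance B _ Z ψ hZ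
      refine ⟨f, fun s hs => ?_⟩
      by_cases h3 : s = {f | f ∉ G.aP ⊔ maximalIdeal (PS O (Sy ι)) ^ N}
      · rw [h3]; exact h2
      · exact (e ⟨⟨s, hs⟩, h3⟩).ge (h1 ⟨⟨s, hs⟩, h3⟩))
  exact hf _ (Or.inr rfl) (Ideal.mem_sup_left ((mem_aP G).2 fun B _ Z ψ hZ =>
    hf _ (Or.inl ⟨B, _, Z, ψ, hZ, rfl⟩)))

/-- the universal entries -/
structure Un (a b : GQ → PS O (Sy ι)) (x : GQ → GQ → PS O (Sy ι)) : Prop where
  ev : ∀ (B : Type) [CommRing B] (Z : PO S B) (ψ : PS O (Sy ι) →+* B), Pt G Z ψ →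
    (∀ g, ψ (a g) = Z.a g) ∧ (∀ g, ψ (b g) = Z.b g) ∧ ∀ g h, ψ (x g h) = Z.x g h
  opn : ∀ N : ℕ, ∃ U : Subgroup GQ, IsOpen (U : Set GQ) ∧ ∀ u ∈ U, ∀ y z,
    a (y * u * z) + b (y * u * z) - (a (y * z) + b (y * z)) ∈
      G.aP ⊔ maximalIdeal (PS O (Sy ι)) ^ N

/-- **the universal pseudo object** -/
theorem uni [CharP F 2] (hL : OkG L S) : ∃ a b x, Un G a b x := by
  choose a ha using fun g => ex_univ G (fun B _ Z => Z.a g) fun σ _ B _ Z ψ hZ =>
    (ex_fin G hL Z ψ hZ g g).1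
  choose b hb using fun g => ex_univ G (fun B _ Z => Z.b g) fun σ _ B _ Z ψ hZ =>
    (ex_fin G hL Z ψ hZ g g).2.1
  choose x hx using fun g h => ex_univ G (fun B _ Z => Z.x g h) fun σ _ B _ Z ψ hZ =>
    (ex_fin G hL Z ψ hZ g h).2.2
  refine ⟨a, b, x, fun B _ Z ψ hZ => ⟨fun g => ha g B Z ψ hZ, fun g => hb g B Z ψ hZ,
    fun g h => hx g h B Z ψ hZ⟩, fun N => ?_⟩
  obtain ⟨σ, _, B, _, Z, ψ, hZ, h⟩ := chev G N
  refine ⟨⨅ e, kr (Z e).tf, ?_, fun u hu y z => h _ fun e => ?_⟩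
  · rw [Subgroup.coe_iInf]
    exact isOpen_iInter_of_finite fun e => po_open (Z e)
  · rw [map_sub, map_add, map_add, ha _ _ _ _ (hZ e), ha _ _ _ _ (hZ e), hb _ _ _ _ (hZ e),
      hb _ _ _ _ (hZ e), (Z e).gm.sum, (Z e).gm.sum, kr_mid _ (Subgroup.mem_iInf.1 hu e), sub_self]

end cpl

end Vale.Agent.P022G.Crv
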